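import Crest.Agent.X212.Fx4.Nd_Mg
import Crest.Agent.X212.Nd18.Fj
import Crest.Agent.X212.Wrd81.Trf
import Crest.Agent.X212.Eqv71.Job

/-!
# Row 212 (helper4): the leaves A-FIX and A-LIM
-/

set_option autoImplicit false
set_option linter.unusedSectionVars false
noncomputable section
open scoped Manifold ContDiff Topology InnerProductSpace
open Set Function Filter

namespace Crest.Agent.X212.Fx4
open An M Nd18

variable {Wi : Type} {X : Mf 4} {A κ lam : Type} [Fintype A] [Fintype κ] [Fintype lam]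
  [DecidableEq lam] {M : Mark X A κ} {W : World M} {N : ML M lam} {Λ : Lns W N}
  {A' h : Type} [Fintype A'] [DecidableEq A'] [Fintype h] {r n : ℕ}
  (J : Job Wi Λ A' h r n) (c : M.Cl)

/-- **A-FIX** -/
theorem fxA : Fk18.FxA J c := by
  intro hJ σ hσ α 𝒰 q y q₀ y₀ π hπ h₀ ok h
  obtain ⟨u, ζ, k, -⟩ := h.lim
  have b := Mcg32.bub_job hJ (Cyl58.isOpen_pc W.toCaps hπ) (k.mono (subset_univ _)) h.s
    (h₀.ok hJ hσ) (ok.mono fun _ k => k.1.ok hJ hσ)
  have := fix_lim b (k.Φ.mono le_rfl (subset_univ _))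
    (ok.mono fun _ k => ⟨(k.1.ok hJ hσ).1, (sdiff_empty (s := W.pc c π)).symm ▸ k.2⟩)
  rwa [sdiff_empty] at this

/-- **A-LIM** -/
theorem lmA (a : A) : Fk18.LmA J c a := by
  intro hJ ha C σ hσ q y b o h e
  have hD := hJ.okZ a
  have a1 : (J.xs a).D.Adm (y.β a b) := ⟨(h.crit a ha b).sol.toAdm, (h.crit a ha b).tmp⟩
  have a2 : (J.xs a).D.Adm (C.β o) := ⟨(C.crit o).sol.toAdm, (C.crit o).tmp⟩
  have s := e.choose_spec.elim fun _ e => Wrd81.ceq_same (Eqv71.lg_refl hD.B hD.G isOpen_univ)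
    (Eqv71.inv_refl isOpen_univ) (Eqv71.ad0 a1.adm) (Eqv71.ad0 a2.adm) e
  refine ⟨s.fix, nondeg_eqv hD (hJ.xs a).2 a1 a2 e (C.nd o), fun π hπ hb => ?_⟩
  have k := h.act hJ hσ ha b
  have : (bif b then atBot else atTop : Filter ℝ).NeBot := by
    cases b; exacts [atTop_neBot, atBot_neBot]
  obtain ⟨h1, h2, h3⟩ := end_typ (Λ.B_ok _ _) (h.ok hJ hσ).1 a1
    (by cases b; exacts [Pj41.ev_top, Pj41.ev_bot]) (h.lim a b k) (Cyl58.isOpen_pc W.toCaps hπ)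
    fun z hz => (hJ.nk _ _ _ _ k).end_mem k hπ hb ((Nk.mem_src _).1 hz)
  refine ⟨fun f => s.fix.1 (h2 f), fun t => ?_⟩
  have z : (J.xs a).D.Zr (C.β o) := fun x => by_contra fun z =>
    let ⟨x, _, z⟩ := s.sp.2 ⟨(x, 0), trivial, z⟩; z (h1 (fun _ => Job.Obc.zero t) x.1)
  exact ⟨z, fun l => C.irr o z (s.lin.1 (h3 l))⟩

end Crest.Agent.X212.Fx4
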